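import Vale.Agent.P155.A4.Inv

/-!
# P155, block A4: generating function, one- and two-point functions
-/

namespace Vale.Agent.P155.A4

open Finset Vale.Agent.P155.F Vale.Agent.P155.Skel

theorem MR_add {V : Finset Pt} {m0 : Pt → Pt} (x : Pt → Pt → ℝ) :
    MR V m0 (fun w b => (1 + x w b) * K w b) = MR V m0 K + MR V m0 (fun w b => x w b * K w b) := by
  ext u v
  simp only [MR, Matrix.of_apply, Matrix.add_apply]
  ring

/-- **A_gen** -/
theorem a_gen_of (hSg : SignLoop) (hI : InsideLoop) : A_gen := by
  classical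
  intro T V hV x
  obtain ⟨m0, h0⟩ := Sub.exists_pm hV
  have hpos := Sub.Z_pos hV
  have hpos' : (0 : ℝ) < Z V := by exact_mod_cast hpos
  obtain ⟨c, hc, hgen⟩ := detR_weights hSg hI hV h0
  have hc0 : c ≠ 0 := by
    intro h
    rw [h, abs_zero] at hc
    exact zero_ne_one hc
  have hK : (MR V m0 K).det = c * Z V := by
    have h1 := hgen (fun _ _ => 1)
    simp only [one_mul, prod_const_one, sum_const, nsmul_eq_mul, mul_one] at h1
    exact h1
  have hdet : (MR V m0 K).det ≠ 0 := by
    rw [hK]
    exact mul_ne_zero hc0 hpos'.ne'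
  have hinv := invRel_of hSg hI hV
  have hG : MR V m0 K * GR V m0 = 1 := MR_mul_GR h0 hinv
  have h2 : (MR V m0 (fun w b => (1 + x w b) * K w b)).det =
      c * ∑ m ∈ PM V, ∏ w ∈ V.filter White, (1 + x w (m w)) := hgen (fun w b => 1 + x w b)
  have h3 : MR V m0 (fun w b => (1 + x w b) * K w b) * GR V m0 =
      1 + Matrix.of (fun (w w' : {v // v ∈ V.filter White}) =>
        ∑ b ∈ nbrs (w : Pt), x w b * K w b * Kinv V b w') := by
    rw [MR_add, Matrix.add_mul, hG]
    congr 1
    ext w w'
    rw [mul_GR_apply h0 w w' (κ := fun w b => x w b * K w b)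
      (fun b hb => K_adj (right_ne_zero_of_mul hb))]
    rfl
  have h4 : (GR V m0).det = ((MR V m0 K).det)⁻¹ := by
    have h5 := congrArg Matrix.det hG
    rw [Matrix.det_mul, Matrix.det_one] at h5
    exact eq_inv_of_mul_eq_one_right h5
  rw [← h3, Matrix.det_mul, h4, h2, hK]
  unfold Ex1
  field_simp

/-- determinant of `1 + U` with two rows -/
theorem det_two_rows {n : Type*} [Fintype n] [DecidableEq n] (a b : n) (r s : n → ℝ) :
    Matrix.det (1 + Matrix.of (fun i j => (if i = a then r j else 0) + (if i = b then s j else 0)) :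
      Matrix n n ℝ) = (1 + r a) * (1 + s b) - r b * s a := by
  have e : (Matrix.of (fun i j => (if i = a then r j else 0) + (if i = b then s j else 0)) :
      Matrix n n ℝ) = (Matrix.of (fun i (k : Fin 2) => if k = 0 then (if i = a then (1 : ℝ) else 0)
        else (if i = b then 1 else 0)) : Matrix n (Fin 2) ℝ) *
      (Matrix.of (fun (k : Fin 2) j => if k = 0 then r j else s j) : Matrix (Fin 2) n ℝ) := by
    ext i j
    rw [Matrix.mul_apply, Fin.sum_univ_two]
    simp
  rw [e, Matrix.det_one_add_mul_comm, Matrix.det_fin_two]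
  simp [Matrix.mul_apply, Matrix.add_apply]

theorem det_one_row {n : Type*} [Fintype n] [DecidableEq n] (a : n) (r : n → ℝ) :
    Matrix.det (1 + Matrix.of (fun i j => (if i = a then r j else 0)) :
      Matrix n n ℝ) = 1 + r a := by
  have e : (Matrix.of (fun i j => (if i = a then r j else 0)) : Matrix n n ℝ) =
      (Matrix.of (fun i (_ : Fin 1) => (if i = a then (1 : ℝ) else 0)) : Matrix n (Fin 1) ℝ) *
      (Matrix.of (fun (_ : Fin 1) j => r j) : Matrix (Fin 1) n ℝ) := by
    ext i j
    rw [Matrix.mul_apply, Fin.sum_univ_one]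
    simp
  rw [e, Matrix.det_one_add_mul_comm, Matrix.det_fin_one]
  simp [Matrix.mul_apply]

theorem Ex1_add (V : Finset Pt) (f g : (Pt → Pt) → ℝ) :
    Ex1 V (fun m => f m + g m) = Ex1 V f + Ex1 V g := by
  unfold Ex1
  rw [sum_add_distrib, mul_add]

theorem Ex1_one {V : Finset Pt} (h : 0 < Z V) : Ex1 V (fun _ => 1) = 1 := by
  unfold Ex1
  have h' : (Z V : ℝ) ≠ 0 := by
    have : (0 : ℝ) < Z V := by exact_mod_cast h
    exact this.ne'
  rw [sum_const, nsmul_eq_mul, mul_one]
  have : ((PM V).card : ℝ) = Z V := rfl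
  rw [this]
  exact inv_mul_cancel₀ h'

/-- sum over the neighbours of `u` of a function supported at one neighbour -/
theorem sum_nbrs_single {w b : Pt} (hadj : Adj w b) (f : Pt → ℝ) (u : Pt) :
    ∑ v ∈ nbrs u, (if u = w ∧ v = b then (1 : ℝ) else 0) * f v = if u = w then f b else 0 := by
  by_cases hu : u = w
  · subst hu
    rw [if_pos rfl, sum_eq_single_of_mem b (mem_nbrs.2 hadj)]
    · simp
    · intro c _ hc
      simp [hc]
  · rw [if_neg hu]
    apply sum_eq_zero
    intro v _
    simp [hu]

/-- **A_one** -/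
theorem a_one_of (hSg : SignLoop) (hI : InsideLoop) : A_one := by
  classical
  intro T V hV w b hwW hw hb hadj
  have hpos := Sub.Z_pos hV
  have h1 := a_gen_of hSg hI T V hV (fun u v => if u = w ∧ v = b then 1 else 0)
  set i : {v // v ∈ V.filter White} := ⟨w, mem_filter.2 ⟨hw, hwW⟩⟩ with hi
  have h2 : Matrix.of (fun (u u' : {v // v ∈ V.filter White}) =>
      ∑ v ∈ nbrs (u : Pt), (if (u : Pt) = w ∧ v = b then (1 : ℝ) else 0) * K u v * Kinv V v u') =
      Matrix.of (fun (u u' : {v // v ∈ V.filter White}) =>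
        if u = i then K w b * Kinv V b u' else 0) := by
    ext u u'
    simp only [Matrix.of_apply, mul_assoc]
    rw [sum_nbrs_single hadj (fun v => K u v * Kinv V v u')]
    by_cases hu : (u : Pt) = w
    · have : u = i := Subtype.ext hu
      rw [if_pos hu, if_pos this, hu]
    · have : u ≠ i := fun h => hu (by rw [h])
      rw [if_neg hu, if_neg this]
  rw [h2, det_one_row] at h1
  have h3 : ∀ m : Pt → Pt, ∏ u ∈ V.filter White, (1 + (if u = w ∧ m u = b then (1 : ℝ) else 0)) =
      1 + (if m w = b then 1 else 0) := by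
    intro m
    rw [prod_eq_single_of_mem w (mem_filter.2 ⟨hw, hwW⟩)]
    · simp
    · intro u _ hu
      simp [hu]
  have h4 : Ex1 V (fun m => 1 + (if m w = b then (1 : ℝ) else 0)) = 1 + K w b * Kinv V b w := by
    rw [← h1]
    congr 1
    funext m
    exact (h3 m).symm
  rw [Ex1_add, Ex1_one hpos] at h4
  have h5 : Ex1 V (fun m => if m w = b then (1 : ℝ) else 0) = K w b * Kinv V b w := by linarith
  exact h5

/-- **A_two** -/
theorem a_two_of (hSg : SignLoop) (hI : InsideLoop) : A_two := by
  classical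
  intro T V hV w b w' b' hwW hwW' hw hb hw' hb' hadj hadj' hww
  have hpos := Sub.Z_pos hV
  have h1 := a_gen_of hSg hI T V hV
    (fun u v => (if u = w ∧ v = b then 1 else 0) + (if u = w' ∧ v = b' then 1 else 0))
  have ho := a_one_of hSg hI T V hV w b hwW hw hb hadj
  have ho' := a_one_of hSg hI T V hV w' b' hwW' hw' hb' hadj'
  set i : {v // v ∈ V.filter White} := ⟨w, mem_filter.2 ⟨hw, hwW⟩⟩ with hi
  set i' : {v // v ∈ V.filter White} := ⟨w', mem_filter.2 ⟨hw', hwW'⟩⟩ with hi'
  have h2 : Matrix.of (fun (u u' : {v // v ∈ V.filter White}) =>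
      ∑ v ∈ nbrs (u : Pt), ((if (u : Pt) = w ∧ v = b then (1 : ℝ) else 0) +
        (if (u : Pt) = w' ∧ v = b' then 1 else 0)) * K u v * Kinv V v u') =
      Matrix.of (fun (u u' : {v // v ∈ V.filter White}) =>
        (if u = i then K w b * Kinv V b u' else 0) +
        (if u = i' then K w' b' * Kinv V b' u' else 0)) := by
    ext u u'
    simp only [Matrix.of_apply, mul_assoc, add_mul, sum_add_distrib]
    rw [sum_nbrs_single hadj (fun v => K u v * Kinv V v u'),
      sum_nbrs_single hadj' (fun v => K u v * Kinv V v u')]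
    congr 1
    · by_cases hu : (u : Pt) = w
      · have : u = i := Subtype.ext hu
        rw [if_pos hu, if_pos this, hu]
      · have : u ≠ i := fun h => hu (by rw [h])
        rw [if_neg hu, if_neg this]
    · by_cases hu : (u : Pt) = w'
      · have : u = i' := Subtype.ext hu
        rw [if_pos hu, if_pos this, hu]
      · have : u ≠ i' := fun h => hu (by rw [h])
        rw [if_neg hu, if_neg this]
  rw [h2, det_two_rows i i' _ _] at h1
  have h3 : ∀ m : Pt → Pt, ∏ u ∈ V.filter White, (1 + ((if u = w ∧ m u = b then (1 : ℝ) else 0) +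
      (if u = w' ∧ m u = b' then 1 else 0))) =
      (1 + (if m w = b then 1 else 0)) * (1 + (if m w' = b' then 1 else 0)) := by
    intro m
    have hsub : ({w, w'} : Finset Pt) ⊆ V.filter White := by
      intro u hu
      simp only [mem_insert, mem_singleton] at hu
      rcases hu with rfl | rfl
      · exact mem_filter.2 ⟨hw, hwW⟩
      · exact mem_filter.2 ⟨hw', hwW'⟩
    rw [← prod_subset hsub, prod_pair hww]
    · simp [hww, hww.symm]
    · intro u _ hu
      simp only [mem_insert, mem_singleton, not_or] at hu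
      simp [hu.1, hu.2]
  have h4 : Ex1 V (fun m => (1 + (if m w = b then (1 : ℝ) else 0)) *
      (1 + (if m w' = b' then 1 else 0))) =
      (1 + K w b * Kinv V b w) * (1 + K w' b' * Kinv V b' w') -
        K w b * Kinv V b w' * (K w' b' * Kinv V b' w) := by
    rw [← h1]
    congr 1
    funext m
    exact (h3 m).symm
  have ho2 : Ex1 V (fun m => if m w = b then (1 : ℝ) else 0) = K w b * Kinv V b w := by
    exact ho
  have ho2' : Ex1 V (fun m => if m w' = b' then (1 : ℝ) else 0) = K w' b' * Kinv V b' w' := by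
    exact ho'
  have h5 : ∀ m : Pt → Pt, (1 + (if m w = b then (1 : ℝ) else 0)) *
      (1 + (if m w' = b' then (1 : ℝ) else 0)) =
      (1 + (if m w = b then (1 : ℝ) else 0)) + ((if m w' = b' then (1 : ℝ) else 0) +
        (if m w = b ∧ m w' = b' then 1 else 0)) := by
    intro m
    by_cases h : m w = b <;> by_cases h' : m w' = b' <;> (simp [h, h']; try norm_num)
  simp_rw [h5] at h4
  rw [Ex1_add, Ex1_add, Ex1_add, Ex1_one hpos, ho2, ho2'] at h4
  have h6 : Ex1 V (fun m => if m w = b ∧ m w' = b' then (1 : ℝ) else 0) =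
      K w b * K w' b' * (Kinv V b w * Kinv V b' w' - Kinv V b w' * Kinv V b' w) := by
    have := h4
    nlinarith [this]
  exact h6

end Vale.Agent.P155.A4
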