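import Vale.Agent.P155.A4.Sign

/-!
# P155, block A4: the inverse Kasteleyn matrix of a sub-graph
-/

namespace Vale.Agent.P155.A4

open Finset Vale.Agent.P155.F Vale.Agent.P155.Skel

section
variable {V : Finset Pt} {m0 : Pt → Pt} (h0 : IsPM V m0)

theorem KM_white {u t : V} (hu : White (u : Pt)) : KM V u t = K u t := by
  unfold KM; rw [if_pos hu]

theorem KM_black {u t : V} (hu : Black (u : Pt)) : KM V u t = K t u := by
  unfold KM; rw [if_neg (black_iff_nw.1 hu)]

theorem K_eq_zero_white {w b : Pt} (hw : White w) (hb : White b) : K w b = 0 := by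
  by_contra h
  exact black_iff_nw.1 (adj_white (K_adj h) hw) hb

theorem K_eq_zero_black {w b : Pt} (hw : Black w) (hb : Black b) : K w b = 0 := by
  by_contra h
  exact black_iff_nw.1 hb (adj_black (K_adj h) hw)

/-- white elements of `V` as elements of `WV V` -/
def toW {V : Finset Pt} (u : V) (h : White (u : Pt)) : WV V := ⟨u, mem_filter.2 ⟨u.2, h⟩⟩

/-- black elements of `V` as elements of `WV V`, through the reference matching -/
def toB {V : Finset Pt} {m0 : Pt → Pt} (h0 : IsPM V m0) (u : V) (h : Black (u : Pt)) : WV V :=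
  ⟨m0 u, m0_mem h0 ⟨u.2, h⟩⟩

open Classical in
/-- the candidate for the inverse of `KM V` -/
noncomputable def GM (u t : V) : ℝ :=
  if h : Black (u : Pt) ∧ White (t : Pt) then (MR V m0 K)⁻¹ (toB h0 u h.1) (toW t h.2)
  else if h : White (u : Pt) ∧ Black (t : Pt) then (MR V m0 K)⁻¹ (toB h0 t h.2) (toW u h.1)
  else 0

theorem GM_bw {u t : V} (hu : Black (u : Pt)) (ht : White (t : Pt)) :
    GM h0 u t = (MR V m0 K)⁻¹ (toB h0 u hu) (toW t ht) := by
  unfold GM; rw [dif_pos ⟨hu, ht⟩]

theorem GM_wb {u t : V} (hu : White (u : Pt)) (ht : Black (t : Pt)) :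
    GM h0 u t = (MR V m0 K)⁻¹ (toB h0 t ht) (toW u hu) := by
  unfold GM
  rw [dif_neg (fun h => black_iff_nw.1 h.1 hu), dif_pos ⟨hu, ht⟩]

theorem GM_ww {u t : V} (hu : White (u : Pt)) (ht : White (t : Pt)) : GM h0 u t = 0 := by
  unfold GM
  rw [dif_neg (fun h => black_iff_nw.1 h.1 hu), dif_neg (fun h => black_iff_nw.1 h.2 ht)]

theorem GM_bb {u t : V} (hu : Black (u : Pt)) (ht : Black (t : Pt)) : GM h0 u t = 0 := by
  unfold GM
  rw [dif_neg (fun h => black_iff_nw.1 ht h.2), dif_neg (fun h => black_iff_nw.1 hu h.1)]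

/-- sum over white elements -/
theorem sum_white (f : V → ℝ) (hf : ∀ t : V, Black (t : Pt) → f t = 0) :
    ∑ t : V, f t = ∑ w : WV V, f ⟨w, w.mem⟩ := by
  classical
  have h1 : ∑ t : V, f t = ∑ t ∈ univ.filter (fun t : V => White (t : Pt)), f t := by
    symm
    apply sum_subset (subset_univ _)
    intro t _ ht
    apply hf
    rw [black_iff_nw]
    intro h
    exact ht (mem_filter.2 ⟨mem_univ _, h⟩)
  rw [h1]
  symm
  refine sum_bij (fun (w : WV V) _ => (⟨w, w.mem⟩ : V)) ?_ ?_ ?_ ?_
  · intro w _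
    exact mem_filter.2 ⟨mem_univ _, w.white⟩
  · intro a _ b _ hab
    exact Subtype.ext (congrArg (fun x : V => (x : Pt)) hab)
  · intro t ht
    exact ⟨⟨t, mem_filter.2 ⟨t.2, (mem_filter.1 ht).2⟩⟩, mem_univ _, rfl⟩
  · intro w _
    rfl

/-- sum over black elements -/
theorem sum_black (f : V → ℝ) (hf : ∀ t : V, White (t : Pt) → f t = 0) :
    ∑ t : V, f t = ∑ w : WV V, f ⟨m0 w, IsPM.mem h0 w.mem⟩ := by
  classical
  have h1 : ∑ t : V, f t = ∑ t ∈ univ.filter (fun t : V => Black (t : Pt)), f t := by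
    symm
    apply sum_subset (subset_univ _)
    intro t _ ht
    apply hf
    by_contra h
    exact ht (mem_filter.2 ⟨mem_univ _, black_iff_nw.2 h⟩)
  rw [h1]
  symm
  refine sum_bij (fun (w : WV V) _ => (⟨m0 w, IsPM.mem h0 w.mem⟩ : V)) ?_ ?_ ?_ ?_
  · intro w _
    exact mem_filter.2 ⟨mem_univ _, IsPM.black h0 w.mem w.white⟩
  · intro a _ b _ hab
    exact Subtype.ext (IsPM.inj h0 (congrArg (fun x : V => (x : Pt)) hab))
  · intro t ht
    have hb := (mem_filter.1 ht).2
    refine ⟨⟨m0 t, m0_mem h0 ⟨t.2, hb⟩⟩, mem_univ _, ?_⟩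
    exact Subtype.ext (h0.invol t)
  · intro w _
    rfl

theorem toB_m0 (w : WV V) (h : Black (m0 (w : Pt))) :
    toB h0 (⟨m0 w, IsPM.mem h0 w.mem⟩ : V) h = w := Subtype.ext (h0.invol w)

theorem toW_coe (w : WV V) (h : White (w : Pt)) : toW (⟨w, w.mem⟩ : V) h = w := rfl

theorem KM_mul_GM (hdet : (MR V m0 K).det ≠ 0) : KM V * Matrix.of (GM h0) = 1 := by
  classical
  have hM : MR V m0 K * (MR V m0 K)⁻¹ = 1 :=
    Matrix.mul_nonsing_inv _ (isUnit_iff_ne_zero.2 hdet)
  have hM' : (MR V m0 K)⁻¹ * MR V m0 K = 1 :=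
    Matrix.nonsing_inv_mul _ (isUnit_iff_ne_zero.2 hdet)
  ext u v
  rw [Matrix.mul_apply, Matrix.one_apply]
  simp only [Matrix.of_apply]
  rcases em (White (u : Pt)) with hu | hu
  · rcases em (White (v : Pt)) with hv | hv
    · rw [sum_black h0 _ (fun t ht => by rw [GM_ww h0 ht hv, mul_zero])]
      have h1 : ∀ w : WV V, KM V u ⟨m0 w, IsPM.mem h0 w.mem⟩ *
          GM h0 ⟨m0 w, IsPM.mem h0 w.mem⟩ v =
          MR V m0 K (toW u hu) w * (MR V m0 K)⁻¹ w (toW v hv) := by
        intro w
        have hb : Black (m0 (w : Pt)) := IsPM.black h0 w.mem w.white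
        rw [KM_white hu, GM_bw h0 hb hv, toB_m0]
        rfl
      simp_rw [h1]
      rw [← Matrix.mul_apply, hM, Matrix.one_apply]
      by_cases huv : u = v
      · have e : toW u hu = toW v hv := by subst huv; rfl
        rw [if_pos huv, if_pos e]
      · have e : toW u hu ≠ toW v hv := fun h =>
          huv (Subtype.ext (congrArg (fun x : WV V => (x : Pt)) h))
        rw [if_neg huv, if_neg e]
    · have hv' : Black (v : Pt) := black_iff_nw.2 hv
      have huv : u ≠ v := by
        rintro rfl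
        exact hv hu
      rw [if_neg huv]
      apply sum_eq_zero
      intro t _
      rcases em (White (t : Pt)) with ht | ht
      · rw [KM_white hu, K_eq_zero_white hu ht, zero_mul]
      · rw [GM_bb h0 (black_iff_nw.2 ht) hv', mul_zero]
  · have hu' : Black (u : Pt) := black_iff_nw.2 hu
    rcases em (White (v : Pt)) with hv | hv
    · have huv : u ≠ v := by
        rintro rfl
        exact hu hv
      rw [if_neg huv]
      apply sum_eq_zero
      intro t _
      rcases em (White (t : Pt)) with ht | ht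
      · rw [GM_ww h0 ht hv, mul_zero]
      · rw [KM_black hu', K_eq_zero_black (black_iff_nw.2 ht) hu', zero_mul]
    · have hv' : Black (v : Pt) := black_iff_nw.2 hv
      rw [sum_white _ (fun t ht => by rw [KM_black hu', K_eq_zero_black ht hu', zero_mul])]
      have h1 : ∀ w : WV V, KM V u ⟨w, w.mem⟩ * GM h0 ⟨w, w.mem⟩ v =
          (MR V m0 K)⁻¹ (toB h0 v hv') w * MR V m0 K w (toB h0 u hu') := by
        intro w
        rw [KM_black hu', GM_wb h0 w.white hv', toW_coe]
        have : MR V m0 K w (toB h0 u hu') = K w u := by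
          unfold MR toB
          simp only [Matrix.of_apply]
          rw [h0.invol]
        rw [this]
        ring
      simp_rw [h1]
      rw [← Matrix.mul_apply, hM', Matrix.one_apply]
      by_cases huv : u = v
      · have e : toB h0 v hv' = toB h0 u hu' := by subst huv; rfl
        rw [if_pos huv, if_pos e]
      · have e : toB h0 v hv' ≠ toB h0 u hu' := fun h =>
          huv (Subtype.ext (IsPM.inj h0 (congrArg (fun x : WV V => (x : Pt)) h)).symm)
        rw [if_neg huv, if_neg e]

include h0 in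
theorem KM_det_ne (hdet : (MR V m0 K).det ≠ 0) : (KM V).det ≠ 0 := by
  intro h
  have h1 := congrArg Matrix.det (KM_mul_GM h0 hdet)
  rw [Matrix.det_mul, h, zero_mul, Matrix.det_one] at h1
  exact zero_ne_one h1

theorem KM_inv (hdet : (MR V m0 K).det ≠ 0) : (KM V)⁻¹ = Matrix.of (GM h0) :=
  Matrix.inv_eq_right_inv (KM_mul_GM h0 hdet)

/-- the entries of `K_V⁻¹` -/
theorem Kinv_eq (hdet : (MR V m0 K).det ≠ 0) {b w : Pt} (hb : b ∈ V) (hw : w ∈ V)
    (hbB : Black b) (hwW : White w) :
    Kinv V b w = (MR V m0 K)⁻¹ ⟨m0 b, m0_mem h0 ⟨hb, hbB⟩⟩ ⟨w, mem_filter.2 ⟨hw, hwW⟩⟩ := by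
  unfold Kinv
  rw [dif_pos hb, dif_pos hw, KM_inv h0 hdet, Matrix.of_apply, GM_bw h0 hbB hwW]
  rfl

end

/-- the inverse relations from the nonvanishing of `det (KM V)` -/
theorem rel_left {V : Finset Pt} (hdet : (KM V).det ≠ 0) {w w' : Pt} (hwW' : White w')
    (hw : w ∈ V) (hw' : w' ∈ V) :
    ∑ b ∈ nbrs w', K w' b * Kinv V b w = if w' = w then 1 else 0 := by
  classical
  have hM : KM V * (KM V)⁻¹ = 1 := Matrix.mul_nonsing_inv _ (isUnit_iff_ne_zero.2 hdet)
  have h1 := congrFun (congrFun hM ⟨w', hw'⟩) ⟨w, hw⟩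
  rw [Matrix.mul_apply, Matrix.one_apply] at h1
  have h2 : ∑ b ∈ nbrs w', K w' b * Kinv V b w = ∑ b ∈ V, K w' b * Kinv V b w := by
    have e1 : ∑ b ∈ nbrs w', K w' b * Kinv V b w =
        ∑ b ∈ nbrs w' ∩ V, K w' b * Kinv V b w := by
      symm
      apply sum_subset inter_subset_left
      intro b hb hb'
      have : b ∉ V := fun h => hb' (mem_inter.2 ⟨hb, h⟩)
      rw [Kinv_off_left this, mul_zero]
    rw [e1]
    apply sum_subset inter_subset_right
    intro b hb hb'
    have : K w' b = 0 := by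
      by_contra hne
      exact hb' (mem_inter.2 ⟨mem_nbrs.2 (K_adj hne), hb⟩)
    rw [this, zero_mul]
  rw [h2, ← sum_coe_sort V (fun b => K w' b * Kinv V b w)]
  have h3 : ∀ t : V, K w' t * Kinv V t w = KM V ⟨w', hw'⟩ t * (KM V)⁻¹ t ⟨w, hw⟩ := by
    intro t
    rw [KM_white hwW']
    unfold Kinv
    rw [dif_pos t.2, dif_pos hw]
  simp_rw [h3, h1, Subtype.mk.injEq]

theorem rel_right {V : Finset Pt} (hdet : (KM V).det ≠ 0) {b b' : Pt} (hb'B : Black b')
    (hb : b ∈ V) (hb' : b' ∈ V) :
    ∑ w ∈ nbrs b', Kinv V b w * K w b' = if b' = b then 1 else 0 := by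
  classical
  have hM : (KM V)⁻¹ * KM V = 1 := Matrix.nonsing_inv_mul _ (isUnit_iff_ne_zero.2 hdet)
  have h1 := congrFun (congrFun hM ⟨b, hb⟩) ⟨b', hb'⟩
  rw [Matrix.mul_apply, Matrix.one_apply] at h1
  have h2 : ∑ w ∈ nbrs b', Kinv V b w * K w b' =
      ∑ w ∈ V, Kinv V b w * (if White w then K w b' else 0) := by
    have e1 : ∑ w ∈ nbrs b', Kinv V b w * K w b' =
        ∑ w ∈ nbrs b' ∩ V, Kinv V b w * K w b' := by
      symm
      apply sum_subset inter_subset_left
      intro w hw hw'
      have : w ∉ V := fun h => hw' (mem_inter.2 ⟨hw, h⟩)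
      rw [Kinv_off_right this, zero_mul]
    rw [e1]
    have e2 : ∑ w ∈ nbrs b' ∩ V, Kinv V b w * K w b' =
        ∑ w ∈ nbrs b' ∩ V, Kinv V b w * (if White w then K w b' else 0) := by
      apply sum_congr rfl
      intro w hw
      rw [if_pos (adj_black (mem_nbrs.1 (mem_inter.1 hw).1) hb'B)]
    rw [e2]
    apply sum_subset inter_subset_right
    intro w hw hw'
    split_ifs with hwW
    · have : K w b' = 0 := by
        by_contra hne
        exact hw' (mem_inter.2 ⟨mem_nbrs.2 (adj_comm' (K_adj hne)), hw⟩)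
      rw [this, mul_zero]
    · rw [mul_zero]
  rw [h2, ← sum_coe_sort V (fun w => Kinv V b w * (if White w then K w b' else 0))]
  have h3 : ∀ t : V, Kinv V b t * (if White (t : Pt) then K t b' else 0) =
      (KM V)⁻¹ ⟨b, hb⟩ t * KM V t ⟨b', hb'⟩ := by
    intro t
    have e : Kinv V b t = (KM V)⁻¹ ⟨b, hb⟩ t := by
      unfold Kinv
      rw [dif_pos hb, dif_pos t.2]
    rw [e]
    split_ifs with ht
    · rw [KM_white ht]
    · rw [KM_black (black_iff_nw.2 ht), K_eq_zero_black hb'B (black_iff_nw.2 ht)]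
  simp_rw [h3, h1, Subtype.mk.injEq]
  by_cases h : b = b'
  · rw [if_pos h, if_pos h.symm]
  · rw [if_neg h, if_neg (fun hh => h hh.symm)]

/-- **A_inv** -/
theorem a_inv_of (hSg : SignLoop) (hI : InsideLoop) : A_inv := by
  intro T V hV
  obtain ⟨m0, h0⟩ := Sub.exists_pm hV
  have hpos := Sub.Z_pos hV
  have hdet : (MR V m0 K).det ≠ 0 := by
    rw [← abs_pos, ← detR_def, abs_detR_K hSg hI hV h0]
    exact_mod_cast hpos
  have hK := KM_det_ne h0 hdet
  refine ⟨hK, hpos, ?_, ?_⟩
  · intro w w' _ hw' h1 h2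
    exact rel_left hK hw' h1 h2
  · intro b b' _ hb' h1 h2
    exact rel_right hK hb' h1 h2

theorem invRel_of (hSg : SignLoop) (hI : InsideLoop) {T : Temp} {V : Finset Pt} (hV : Sub T V) :
    InvRel V := by
  intro w w' hw hw' h1 h2
  exact (a_inv_of hSg hI T V hV).2.2.1 w w' hw hw' h1 h2

/-- **A_le** -/
theorem a_le_of (hSg : SignLoop) (hI : InsideLoop) : A_le := by
  classical
  intro T V hV b w hb hw hbB hwW
  obtain ⟨m0, h0⟩ := Sub.exists_pm hV
  have hpos := Sub.Z_pos hV
  have hZ := abs_detR_K hSg hI hV h0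
  have hpos' : (0 : ℝ) < Z V := by exact_mod_cast hpos
  have hdet : (MR V m0 K).det ≠ 0 := by
    rw [← abs_pos, ← detR_def, hZ]
    exact hpos'
  rw [Kinv_eq h0 hdet hb hw hbB hwW, le_div_iff₀ hpos']
  set j : WV V := ⟨m0 b, m0_mem h0 ⟨hb, hbB⟩⟩ with hj
  set i : WV V := ⟨w, mem_filter.2 ⟨hw, hwW⟩⟩ with hi
  have h1 : (MR V m0 K)⁻¹ j i * (MR V m0 K).det =
      ((MR V m0 K).updateRow i (Pi.single j 1)).det := by
    rw [Matrix.inv_def, Matrix.smul_apply, Matrix.adjugate_apply, Ring.inverse_eq_inv',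
      smul_eq_mul]
    field_simp
  have h2 : ((MR V m0 K).updateRow i (Pi.single j 1)) =
      MR V m0 (fun u v => if u = w then (if v = b then 1 else 0) else K u v) := by
    ext u v
    by_cases hu : u = i
    · subst hu
      rw [Matrix.updateRow_self]
      simp only [MR, Matrix.of_apply, hi, if_true]
      rw [Pi.single_apply]
      by_cases hv : v = j
      · rw [if_pos hv, if_pos]
        rw [hv, hj]
        exact h0.invol b
      · rw [if_neg hv, if_neg]
        intro hh
        apply hv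
        apply Subtype.ext
        rw [hj]
        show (v : Pt) = m0 b
        rw [← hh, h0.invol]
    · rw [Matrix.updateRow_ne hu]
      have : (u : Pt) ≠ w := fun h => hu (Subtype.ext h)
      simp only [MR, Matrix.of_apply, this, if_false]
  have h3 : |(MR V m0 (fun u v => if u = w then (if v = b then 1 else 0) else K u v)).det| ≤
      Z (V \ {w, b}) := by
    rw [← detR_def]
    have := abs_detR_le h0 (S := {w}) (g := fun _ => b) (by
        intro x hx
        rw [mem_singleton] at hx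
        rw [hx]; exact ⟨hw, hwW⟩) (by
        intro x _
        exact ⟨hb, hbB⟩) (by
        intro x hx y hy _
        simp only [coe_singleton, Set.mem_singleton_iff] at hx hy
        rw [hx, hy])
      (κ := fun u v => if u = w then (if v = b then 1 else 0) else K u v) (by
        refine ⟨?_, ?_, ?_⟩
        · intro x hx y
          rw [mem_singleton] at hx
          simp only [hx, if_true]
        · intro x _ _ hx y
          rw [mem_singleton] at hx
          simp only [hx, if_false]
          exact abs_K_le x y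
        · intro x _ _ hx y hy
          rw [mem_singleton] at hx
          simp only [hx, if_false] at hy
          exact K_adj hy)
    have e : ({w} : Finset Pt) ∪ ({w} : Finset Pt).image (fun _ => b) = {w, b} := by
      rw [image_singleton]
      rfl
    rw [e] at this
    exact this
  calc |(MR V m0 K)⁻¹ j i| * (Z V : ℝ) = |(MR V m0 K)⁻¹ j i| * |(MR V m0 K).det| := by
        rw [← hZ, detR_def]
    _ = |(MR V m0 K)⁻¹ j i * (MR V m0 K).det| := (abs_mul _ _).symm
    _ ≤ Z (V \ {w, b}) := by rw [h1, h2]; exact h3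

end Vale.Agent.P155.A4
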