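import Vale.Agent.P155.A4.Gen
import Vale.Agent.P155.A.SignLoop
import Vale.Agent.P155.A.Pick
import Vale.Agent.P155.F.InsideLoop

/-!
# P155, blocks A3/A4: the interface statements, proved
-/

namespace Vale.Agent.P155.A4

open Vale.Agent.P155.Skel

theorem signLoop : F.SignLoop := A.signLoop_of_pick (fun γ => γ.pick)

theorem a_inv : A_inv := a_inv_of signLoop F.insideLoop

theorem a_le : A_le := a_le_of signLoop F.insideLoop

theorem a_gen : A_gen := a_gen_of signLoop F.insideLoop

theorem a_one : A_one := a_one_of signLoop F.insideLoop

theorem a_two : A_two := a_two_of signLoop F.insideLoop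

end Vale.Agent.P155.A4
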