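import Vale.Agent.P155.E1.Glue
import Vale.Agent.P155.Skel

/-!
# P155, block A4: the Markov property of one copy, and the average of the monomer ratios
-/

namespace Vale.Agent.P155.A4

open Finset Vale.Agent.P155.Skel Vale.Agent.P155.E1

open Classical in
/-- the atom of one copy -/
noncomputable def atom1 (V B : Finset Pt) (m : Pt → Pt) : Finset (Pt → Pt) :=
  (PM V).filter (fun m' => ∀ v, v ∉ Vin V B m → m' v = m v)

theorem mem_atom1 {V B : Finset Pt} {m m' : Pt → Pt} :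
    m' ∈ atom1 V B m ↔ m' ∈ PM V ∧ ∀ v, v ∉ Vin V B m → m' v = m v := by
  classical
  unfold atom1
  rw [mem_filter]

theorem atom1_self {V B : Finset Pt} {m : Pt → Pt} (hm : m ∈ PM V) : m ∈ atom1 V B m :=
  mem_atom1.2 ⟨hm, fun _ _ => rfl⟩

theorem atom1_eq {V B : Finset Pt} {m m' : Pt → Pt} (hm : m ∈ PM V) (h : m' ∈ atom1 V B m) :
    atom1 V B m' = atom1 V B m := by
  obtain ⟨h1, h2⟩ := mem_atom1.1 h
  have hV := Vin_congr (mem_PM.1 hm) (mem_PM.1 h1) h2
  ext m''
  rw [mem_atom1, mem_atom1, hV]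
  constructor
  · rintro ⟨h3, h4⟩
    exact ⟨h3, fun v hv => (h4 v hv).trans (h2 v hv)⟩
  · rintro ⟨h3, h4⟩
    exact ⟨h3, fun v hv => (h4 v hv).trans (h2 v hv).symm⟩

theorem atom1_symm {V B : Finset Pt} {m m' : Pt → Pt} (hm : m ∈ PM V) (h : m' ∈ atom1 V B m) :
    m ∈ atom1 V B m' := by
  rw [atom1_eq hm h]
  exact atom1_self hm

theorem card_atom1 {V B : Finset Pt} {m : Pt → Pt} (hm : m ∈ PM V) :
    (atom1 V B m).card = Z (Vin V B m) := by
  classical
  have h := atom_one (V := V) (B := B) (mem_PM.1 hm)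
  unfold atom1 Z
  rw [show (PM V).filter (fun m' => ∀ v, v ∉ Vin V B m → m' v = m v) =
    (PM (Vin V B m)).image (glue (Vin V B m) m) from by convert h]
  exact card_image_of_injOn (glue_inj m)

theorem Ex1_glue {V B : Finset Pt} {m : Pt → Pt} (hm : m ∈ PM V) (g : (Pt → Pt) → ℝ) :
    Ex1 (Vin V B m) (fun m' => g (glue (Vin V B m) m m')) =
      ((atom1 V B m).card : ℝ)⁻¹ * ∑ m' ∈ atom1 V B m, g m' := by
  classical
  have h := atom_one (V := V) (B := B) (mem_PM.1 hm)
  unfold Ex1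
  rw [card_atom1 hm]
  congr 1
  unfold atom1
  rw [show (PM V).filter (fun m' => ∀ v, v ∉ Vin V B m → m' v = m v) =
    (PM (Vin V B m)).image (glue (Vin V B m) m) from by convert h]
  rw [sum_image (glue_inj m)]

/-- **A_mark** -/
theorem a_mark : A_mark := by
  classical
  intro V B g
  have h1 : ∀ m ∈ PM V, Ex1 (Vin V B m)
      (fun m' => g (fun v => by classical exact if v ∈ Vin V B m then m' v else m v)) =
      ∑ m' ∈ atom1 V B m, ((atom1 V B m).card : ℝ)⁻¹ * g m' := by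
    intro m hm
    rw [← mul_sum, ← Ex1_glue hm]
    rfl
  unfold Ex1 at h1 ⊢
  rw [sum_congr rfl h1]
  congr 1
  have h2 : ∑ m ∈ PM V, ∑ m' ∈ atom1 V B m, ((atom1 V B m).card : ℝ)⁻¹ * g m' =
      ∑ m' ∈ PM V, ∑ m ∈ atom1 V B m', ((atom1 V B m).card : ℝ)⁻¹ * g m' := by
    apply sum_comm'
    intro m m'
    constructor
    · rintro ⟨h3, h4⟩
      exact ⟨atom1_symm h3 h4, (mem_atom1.1 h4).1⟩
    · rintro ⟨h3, h4⟩
      exact ⟨(mem_atom1.1 h3).1, atom1_symm h4 h3⟩
  rw [h2]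
  apply sum_congr rfl
  intro m' hm'
  have h3 : ∀ m ∈ atom1 V B m', ((atom1 V B m).card : ℝ)⁻¹ * g m' =
      ((atom1 V B m').card : ℝ)⁻¹ * g m' := by
    intro m hm
    rw [atom1_eq hm' hm]
  rw [sum_congr rfl h3, sum_const, nsmul_eq_mul]
  have h4 : ((atom1 V B m').card : ℝ) ≠ 0 := by
    have : 0 < (atom1 V B m').card := card_pos.2 ⟨m', atom1_self hm'⟩
    positivity
  field_simp

/-- matchings of `V \ {w, b}` agreeing with `m` off `Vin` -/
noncomputable def ext1 (V B : Finset Pt) (w b : Pt) (m : Pt → Pt) : Finset (Pt → Pt) := by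
  classical
  exact (PM (V \ {w, b})).filter (fun M => ∀ v, v ∉ Vin V B m → M v = m v)

theorem mem_ext1 {V B : Finset Pt} {w b : Pt} {m M : Pt → Pt} :
    M ∈ ext1 V B w b m ↔ M ∈ PM (V \ {w, b}) ∧ ∀ v, v ∉ Vin V B m → M v = m v := by
  classical
  unfold ext1
  rw [mem_filter]

theorem Z_le_ext1 {V B : Finset Pt} {w b : Pt} {m : Pt → Pt} (hm : m ∈ PM V)
    (hw : w ∈ Vin V B m) (hb : b ∈ Vin V B m) :
    Z (Vin V B m \ {w, b}) ≤ (ext1 V B w b m).card := by
  classical
  have hmP := mem_PM.1 hm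
  unfold Z
  have hVV : ∀ v, v ∈ Vin V B m → v ∈ V := fun v hv => (mem_Vin.1 hv).1
  have hVout : ∀ v, v ∉ Vin V B m → m v ∉ Vin V B m := by
    intro v hv h
    apply hv
    have := Vin_closed hmP h
    rwa [hmP.invol] at this
  apply card_le_card_of_injOn (glue (Vin V B m) m)
  · intro m' hm'
    rw [mem_coe, mem_PM] at hm'
    rw [mem_coe, mem_ext1]
    have hcl : ∀ v, v ∈ Vin V B m → m' v ∈ Vin V B m := by
      intro v hv
      by_cases h : v ∈ Vin V B m \ {w, b}
      · exact (mem_sdiff.1 (pm_mem' hm' h)).1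
      · rw [hm'.off v h]; exact hv
    refine ⟨mem_PM.2 ⟨?_, ?_, ?_⟩, fun v hv => glue_not hv⟩
    · intro v
      by_cases hv : v ∈ Vin V B m
      · rw [glue_mem hv, glue_mem (hcl v hv), hm'.invol]
      · rw [glue_not hv, glue_not (hVout v hv), hmP.invol]
    · intro v hv
      by_cases hv' : v ∈ Vin V B m
      · rw [glue_mem hv']
        apply hm'.off
        intro h
        exact hv (mem_sdiff.2 ⟨hVV v hv', (mem_sdiff.1 h).2⟩)
      · rw [glue_not hv']
        apply hmP.off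
        intro h
        apply hv
        rw [mem_sdiff]
        refine ⟨h, ?_⟩
        rw [mem_insert, mem_singleton]
        rintro (rfl | rfl)
        · exact hv' hw
        · exact hv' hb
    · intro v hv
      by_cases hv' : v ∈ Vin V B m
      · rw [glue_mem hv']
        exact hm'.adj v (mem_sdiff.2 ⟨hv', (mem_sdiff.1 hv).2⟩)
      · rw [glue_not hv']
        exact hmP.adj v (mem_sdiff.1 hv).1
  · intro a ha c hc hac
    rw [mem_coe, mem_PM] at ha hc
    funext v
    by_cases hv : v ∈ Vin V B m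
    · have := congrFun hac v
      rwa [glue_mem hv, glue_mem hv] at this
    · have hv' : v ∉ Vin V B m \ {w, b} := fun h => hv (mem_sdiff.1 h).1
      rw [ha.off v hv', hc.off v hv']

/-- the atom is determined by the extension -/
theorem ext1_atom {V B : Finset Pt} {w b : Pt} {m m2 M : Pt → Pt} (hm : m ∈ PM V)
    (hm2 : m2 ∈ PM V) (hw : ∀ m ∈ PM V, w ∈ Vin V B m) (hb : ∀ m ∈ PM V, b ∈ Vin V B m)
    (h : M ∈ ext1 V B w b m) (h2 : M ∈ ext1 V B w b m2) : m2 ∈ atom1 V B m := by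
  obtain ⟨hM, hMm⟩ := mem_ext1.1 h
  obtain ⟨_, hMm2⟩ := mem_ext1.1 h2
  have hMP := mem_PM.1 hM
  have key : ∀ m ∈ PM V, (∀ v, v ∉ Vin V B m → M v = m v) → ∀ v, v ∈ V \ {w, b} →
      (v ∈ Vin V B m ↔ v ∈ B ∧ M v ∈ B) := by
    intro m hm hMm v hv
    have hmP := mem_PM.1 hm
    constructor
    · intro hv1
      refine ⟨(mem_Vin.1 hv1).2.1, ?_⟩
      by_contra hc
      have h3 : M v ∉ Vin V B m := fun h4 => hc (mem_Vin.1 h4).2.1
      have h4 := hMm _ h3
      rw [hMP.invol] at h4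
      have h5 : m v = M v := (congrArg m h4).trans (hmP.invol _)
      exact hc (h5 ▸ (mem_Vin.1 hv1).2.2)
    · rintro ⟨h3, h4⟩
      by_contra hc
      have h5 := hMm v hc
      apply hc
      rw [mem_Vin]
      exact ⟨(mem_sdiff.1 hv).1, h3, h5 ▸ h4⟩
  have hVin : ∀ v, v ∈ Vin V B m ↔ v ∈ Vin V B m2 := by
    intro v
    by_cases hv : v ∈ V \ {w, b}
    · rw [key m hm hMm v hv, key m2 hm2 hMm2 v hv]
    · by_cases hvV : v ∈ V
      · have : v = w ∨ v = b := by
          by_contra hc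
          apply hv
          rw [mem_sdiff, mem_insert, mem_singleton]
          exact ⟨hvV, hc⟩
        rcases this with rfl | rfl
        · exact ⟨fun _ => hw m2 hm2, fun _ => hw m hm⟩
        · exact ⟨fun _ => hb m2 hm2, fun _ => hb m hm⟩
      · exact ⟨fun h => absurd (mem_Vin.1 h).1 hvV, fun h => absurd (mem_Vin.1 h).1 hvV⟩
  rw [mem_atom1]
  refine ⟨hm2, fun v hv => ?_⟩
  rw [← hMm2 v (fun h => hv ((hVin v).2 h)), hMm v hv]

/-- The corrected form of `A_EM`: `w`, `b` and their neighbours lie in `B`. -/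
def A_EM' : Prop := ∀ (V B : Finset Pt) (w b : Pt), 0 < Z V → w ∈ V → b ∈ V → w ∈ B → b ∈ B →
  (∀ u, Adj w u → u ∈ B) → (∀ u, Adj b u → u ∈ B) →
  Ex1 V (fun m => (Z (Vin V B m \ {w, b}) : ℝ) / Z (Vin V B m)) ≤ (Z (V \ {w, b}) : ℝ) / Z V

theorem a_EM' : A_EM' := by
  classical
  intro V B w b hZ hwV hbV hwB hbB hwN hbN
  have hw : ∀ m ∈ PM V, w ∈ Vin V B m := fun m hm =>
    mem_Vin.2 ⟨hwV, hwB, hwN _ ((mem_PM.1 hm).adj w hwV)⟩
  have hb : ∀ m ∈ PM V, b ∈ Vin V B m := fun m hm =>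
    mem_Vin.2 ⟨hbV, hbB, hbN _ ((mem_PM.1 hm).adj b hbV)⟩
  have hZ' : (0 : ℝ) < Z V := by exact_mod_cast hZ
  unfold Ex1
  rw [inv_mul_eq_div]
  apply div_le_div_of_nonneg_right _ hZ'.le
  calc ∑ m ∈ PM V, (Z (Vin V B m \ {w, b}) : ℝ) / Z (Vin V B m)
      ≤ ∑ m ∈ PM V, ∑ M ∈ ext1 V B w b m, ((atom1 V B m).card : ℝ)⁻¹ := by
        apply sum_le_sum
        intro m hm
        rw [sum_const, nsmul_eq_mul, card_atom1 hm, div_eq_mul_inv]
        apply mul_le_mul_of_nonneg_right _ (by positivity)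
        exact_mod_cast Z_le_ext1 hm (hw m hm) (hb m hm)
    _ = ∑ M ∈ PM (V \ {w, b}), ∑ m ∈ (PM V).filter (fun m => M ∈ ext1 V B w b m),
          ((atom1 V B m).card : ℝ)⁻¹ := by
        apply sum_comm'
        intro m M
        rw [mem_filter]
        constructor
        · rintro ⟨h1, h2⟩
          exact ⟨⟨h1, h2⟩, (mem_ext1.1 h2).1⟩
        · rintro ⟨⟨h1, h2⟩, _⟩
          exact ⟨h1, h2⟩
    _ ≤ ∑ M ∈ PM (V \ {w, b}), 1 := by
        apply sum_le_sum
        intro M _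
        rcases ((PM V).filter (fun m => M ∈ ext1 V B w b m)).eq_empty_or_nonempty with he | ⟨m0, hm0⟩
        · rw [he, sum_empty]; exact zero_le_one
        · obtain ⟨hm0V, hm0M⟩ := mem_filter.1 hm0
          have hsub : (PM V).filter (fun m => M ∈ ext1 V B w b m) ⊆ atom1 V B m0 := by
            intro m hm
            obtain ⟨hmV, hmM⟩ := mem_filter.1 hm
            exact ext1_atom hm0V hmV hw hb hm0M hmM
          calc ∑ m ∈ (PM V).filter (fun m => M ∈ ext1 V B w b m), ((atom1 V B m).card : ℝ)⁻¹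
              = ∑ m ∈ (PM V).filter (fun m => M ∈ ext1 V B w b m),
                  ((atom1 V B m0).card : ℝ)⁻¹ := by
                apply sum_congr rfl
                intro m hm
                rw [atom1_eq hm0V (hsub hm)]
            _ ≤ ∑ m ∈ atom1 V B m0, ((atom1 V B m0).card : ℝ)⁻¹ :=
                sum_le_sum_of_subset_of_nonneg hsub (fun _ _ _ => by positivity)
            _ = 1 := by
                rw [sum_const, nsmul_eq_mul]
                have : 0 < (atom1 V B m0).card := card_pos.2 ⟨m0, atom1_self hm0V⟩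
                exact mul_inv_cancel₀ (by positivity)
    _ = (Z (V \ {w, b}) : ℝ) := by
        rw [sum_const, nsmul_eq_mul, mul_one]
        rfl

end Vale.Agent.P155.A4
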