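import Vale.Agent.P155.F.F2
import Vale.Agent.P155.Skel

/-!
# P155, block A3/A4: all matchings of a sub-graph `V` of `T.V` with tileable complement have the
same Kasteleyn sign.
-/

namespace Vale.Agent.P155.A4

open Finset Vale.Agent.P155.F Vale.Agent.P155.Skel

theorem Sub.sub {T : Temp} {V : Finset Pt} (h : Sub T V) : V ⊆ T.V := by
  obtain ⟨m, _, hm⟩ := h
  intro v hv
  exact (hm v hv).1

/-- The restriction of the outer matching is a matching of `V`. -/
theorem Sub.exists_pm {T : Temp} {V : Finset Pt} (h : Sub T V) : ∃ m0, IsPM V m0 := by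
  classical
  obtain ⟨m, hm, hmV⟩ := h
  rw [mem_PM] at hm
  refine ⟨fun v => if v ∈ V then m v else v, ?_, ?_, ?_⟩
  · intro v
    by_cases hv : v ∈ V
    · simp only [hv, if_true, (hmV v hv).2, hm.invol]
    · simp only [hv, if_false]
  · intro v hv
    simp only [hv, if_false]
  · intro v hv
    simp only [hv, if_true]
    exact hm.adj v (hmV v hv).1

theorem Sub.Z_pos {T : Temp} {V : Finset Pt} (h : Sub T V) : 0 < Z V := by
  obtain ⟨m0, h0⟩ := Sub.exists_pm h
  unfold Z
  exact card_pos.2 ⟨m0, mem_PM.2 h0⟩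

/-- A matching of `V` extends to a matching of `T.V`. -/
theorem Sub.extend {T : Temp} {V : Finset Pt} (h : Sub T V) {m1 : Pt → Pt} (h1 : IsPM V m1) :
    ∃ M, IsPM T.V M ∧ ∀ v ∈ V, M v = m1 v := by
  classical
  obtain ⟨m, hm, hmV⟩ := h
  rw [mem_PM] at hm
  have hout : ∀ v, v ∉ V → m v ∉ V := by
    intro v hv hmv
    have := (hmV _ hmv).2
    rw [hm.invol] at this
    exact hv this
  refine ⟨fun v => if v ∈ V then m1 v else m v, ⟨?_, ?_, ?_⟩, ?_⟩
  · intro v
    by_cases hv : v ∈ V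
    · simp only [hv, if_true, IsPM.mem h1 hv, h1.invol]
    · simp only [hv, if_false, hout v hv, hm.invol]
  · intro v hv
    have hv' : v ∉ V := fun hh => hv (hmV v hh).1
    simp only [hv', if_false]
    exact hm.off v hv
  · intro v hv
    by_cases hv' : v ∈ V
    · simp only [hv', if_true]
      exact h1.adj v hv'
    · simp only [hv', if_false]
      exact hm.adj v hv
  · intro v hv
    simp only [hv, if_true]

/-- The number of points strictly inside a loop is even. -/
theorem even_inside (hI : InsideLoop) {T : Temp} {V : Finset Pt} (hV : Sub T V)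
    {m1 m2 : Pt → Pt} (h1 : IsPM V m1) (h2 : IsPM V m2) {L : Set Pt} (hL : L ∈ Loops (m1, m2)) :
    (-1 : ℝ) ^ (Set.ncard {v | v ∉ L ∧ surr (m1, m2) L v}) = 1 := by
  classical
  obtain ⟨hfin, hadj, hsub⟩ := hI V m1 m2 h1 h2 L hL
  obtain ⟨M, hM, hMV⟩ := Sub.extend hV h1
  have hLV : ∀ v ∈ L, v ∈ V := fun v hv => loops_sub h1 h2 hL hv
  have hLM : ∀ v, v ∉ L → M v ∉ L := by
    intro v hv hMv
    have h3 := hLV _ hMv
    have h4 : M (M v) = m1 (M v) := hMV _ h3
    rw [hM.invol] at h4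
    apply hv
    rw [h4]
    exact (loops_closed1 h1 hL (M v)).1 hMv
  set I := hfin.toFinset with hIdef
  have hmemI : ∀ v, v ∈ I ↔ v ∉ L ∧ surr (m1, m2) L v := by
    intro v
    rw [hIdef, Set.Finite.mem_toFinset]
    rfl
  have hcard : Set.ncard {v | v ∉ L ∧ surr (m1, m2) L v} = I.card :=
    Set.ncard_eq_toFinset_card _ hfin
  rw [hcard, ← prod_const]
  apply prod_involution (fun v _ => M v)
  · intro a _
    norm_num
  · intro a ha _
    have haI := (hmemI a).1 ha
    have hV' := hsub T (Sub.sub hV) a haI.1 haI.2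
    exact fun h => adj_ne (hM.adj a hV') h.symm
  · intro a ha
    have haI := (hmemI a).1 ha
    have hV' := hsub T (Sub.sub hV) a haI.1 haI.2
    rw [hmemI]
    exact ⟨hLM a haI.1, (hadj a (M a) (hM.adj a hV') haI.1 (hLM a haI.1)).1 haI.2⟩
  · intro a _
    exact hM.invol a

theorem sdiff_empty_image (V : Finset Pt) (g : Pt → Pt) : V \ (∅ ∪ (∅ : Finset Pt).image g) = V := by
  simp

/-- **Same sign.** -/
theorem same_sign (hSg : SignLoop) (hI : InsideLoop) {T : Temp} {V : Finset Pt} (hV : Sub T V)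
    {m0 : Pt → Pt} (h0 : IsPM V m0) {σ τ : Equiv.Perm (WV V)} (hσ : Good V m0 ∅ id σ)
    (hτ : Good V m0 ∅ id τ) :
    ((Equiv.Perm.sign σ : ℤ) : ℝ) * ((Equiv.Perm.sign τ : ℤ) : ℝ) *
      ∏ i : WV V, (K i (m0 (σ i)) * K i (m0 (τ i))) = 1 := by
  classical
  have hS : ∀ w ∈ (∅ : Finset Pt), w ∈ V ∧ White w := by simp
  have hg : ∀ w ∈ (∅ : Finset Pt), id w ∈ V ∧ Black (id w) := by simp
  have hinj : Set.InjOn (id : Pt → Pt) (∅ : Finset Pt) := by simp
  have hP1 := isPM_matchOf h0 hS hg hinj hσ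
  have hP2 := isPM_matchOf h0 hS hg hinj hτ
  rw [sdiff_empty_image] at hP1 hP2
  apply sign_mul_sign_mul_prod
  · intro i hi
    rw [hi]
    have : |K i (m0 (τ i))| = 1 := abs_K_eq ((hτ i).2 (by simp))
    rw [← abs_mul_abs_self, this, one_mul]
  · intro c hc
    obtain ⟨L, hL, hprod⟩ := prod_cycle h0 hS hg hinj hσ hτ hc
    rw [sdiff_empty_image] at hprod
    set m1 := matchOf V m0 ∅ id σ with hm1
    set m2 := matchOf V m0 ∅ id τ with hm2
    have e1 : ∏ i ∈ c.support, (K i (m0 (σ i)) * K i (m0 (τ i))) =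
        ∏ i ∈ c.support, (K i (m1 i) * K i (m2 i)) := by
      apply prod_congr rfl
      intro i _
      rw [hm1, hm2, matchOf_white i (by simp), matchOf_white i (by simp)]
    have e2 := hprod (fun v => K v (m1 v) * K v (m2 v))
    have e3 := hSg V m1 m2 hP1 hP2 L hL
    have e5 : (c.support.card : ℕ) = (V.filter (fun w => White w ∧ w ∈ L)).card := by
      have h1 := hprod (fun _ => 2)
      rw [prod_const, prod_const] at h1
      exact Nat.pow_right_injective (le_refl 2) (by exact_mod_cast h1)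
    have e6 := even_inside hI hV hP1 hP2 hL
    rw [e1, e2, e3, pow_add, pow_add, e6, e5, pow_add, one_mul]

/-- all terms of the determinant have the same sign -/
theorem exists_sign (hSg : SignLoop) (hI : InsideLoop) {T : Temp} {V : Finset Pt} (hV : Sub T V)
    {m0 : Pt → Pt} (h0 : IsPM V m0) :
    ∃ c : ℝ, |c| = 1 ∧ ∀ σ : Equiv.Perm (WV V), Good V m0 ∅ id σ →
      ((Equiv.Perm.sign σ : ℤ) : ℝ) * ∏ w : WV V, K w (m0 (σ w)) = c := by
  have habs : ∀ σ : Equiv.Perm (WV V), Good V m0 ∅ id σ →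
      |((Equiv.Perm.sign σ : ℤ) : ℝ) * ∏ w : WV V, K w (m0 (σ w))| = 1 := by
    intro σ hσ
    have h1 : |((Equiv.Perm.sign σ : ℤ) : ℝ)| = 1 := by
      rcases Int.units_eq_one_or (Equiv.Perm.sign σ) with h | h <;> rw [h] <;> simp
    rw [abs_mul, h1, one_mul, abs_prod]
    apply prod_eq_one
    intro w _
    exact abs_K_eq ((hσ w).2 (by simp))
  by_cases hne : ∃ σ0 : Equiv.Perm (WV V), Good V m0 ∅ id σ0
  · obtain ⟨σ0, hσ0⟩ := hne
    refine ⟨((Equiv.Perm.sign σ0 : ℤ) : ℝ) * ∏ w : WV V, K w (m0 (σ0 w)), habs σ0 hσ0, ?_⟩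
    intro σ hσ
    have h1 := same_sign hSg hI hV h0 hσ hσ0
    rw [prod_mul_distrib] at h1
    have h2 : (((Equiv.Perm.sign σ : ℤ) : ℝ) * ∏ w : WV V, K w (m0 (σ w))) *
        (((Equiv.Perm.sign σ0 : ℤ) : ℝ) * ∏ w : WV V, K w (m0 (σ0 w))) = 1 := by
      rw [← h1]; ring
    have h3 := habs σ0 hσ0
    set A := ((Equiv.Perm.sign σ : ℤ) : ℝ) * ∏ w : WV V, K w (m0 (σ w))
    set B := ((Equiv.Perm.sign σ0 : ℤ) : ℝ) * ∏ w : WV V, K w (m0 (σ0 w))
    have h4 : B * B = 1 := by rw [← abs_mul_abs_self, h3, one_mul]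
    calc A = A * (B * B) := by rw [h4, mul_one]
      _ = (A * B) * B := by ring
      _ = B := by rw [h2, one_mul]
  · push Not at hne
    exact ⟨1, abs_one, fun σ hσ => absurd hσ (hne σ)⟩

open Classical in
/-- Sum over good permutations = sum over matchings. -/
theorem sum_good {V : Finset Pt} {m0 : Pt → Pt} (h0 : IsPM V m0) (F : (WV V → Pt) → ℝ) :
    ∑ σ ∈ univ.filter (Good V m0 ∅ id), F (fun w => m0 (σ w)) =
      ∑ m ∈ PM V, F (fun w => m w) := by
  have hS : ∀ w ∈ (∅ : Finset Pt), w ∈ V ∧ White w := by simp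
  have hg : ∀ w ∈ (∅ : Finset Pt), id w ∈ V ∧ Black (id w) := by simp
  have hinj : Set.InjOn (id : Pt → Pt) (∅ : Finset Pt) := by simp
  have hconv : ∀ {m : Pt → Pt}, m ∈ PM V → IsPM (V \ (∅ ∪ (∅ : Finset Pt).image id)) m := by
    intro m hm
    rw [sdiff_empty_image]
    exact mem_PM.1 hm
  have hfm : ∀ (m : Pt → Pt) (w : WV V), fm ∅ id m w = m w := by
    intro m w
    unfold fm
    simp
  symm
  refine sum_bij (fun m hm => permOf h0 hS hg hinj (hconv hm)) ?_ ?_ ?_ ?_
  · intro m hm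
    exact mem_filter.2 ⟨mem_univ _, good_permOf h0 hS hg hinj (hconv hm)⟩
  · intro m hm m' hm' heq
    have hmP := mem_PM.1 hm
    have hmP' := mem_PM.1 hm'
    have hw : ∀ w : WV V, m w = m' w := by
      intro w
      have h1 := permOf_apply h0 hS hg hinj (hconv hm) w
      have h2 := permOf_apply h0 hS hg hinj (hconv hm') w
      rw [heq] at h1
      rw [h1, hfm, hfm] at h2
      exact h2
    funext v
    by_cases hv : v ∈ V
    · by_cases hc : White v
      · exact hw ⟨v, mem_filter.2 ⟨hv, hc⟩⟩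
      · have hb : Black v := by rw [black_iff_nw]; exact hc
        have h4 := hw ⟨m v, mem_filter.2 ⟨IsPM.mem hmP hv, IsPM.white hmP hv hb⟩⟩
        simp only at h4
        rw [hmP.invol] at h4
        rw [← hmP'.invol (m v), ← h4]
    · rw [hmP.off v hv, hmP'.off v hv]
  · intro σ hσ
    have hσ := (mem_filter.1 hσ).2
    have hPM := isPM_matchOf h0 hS hg hinj hσ
    have hPM' : matchOf V m0 ∅ id σ ∈ PM V := by
      rw [mem_PM]
      rw [sdiff_empty_image] at hPM
      exact hPM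
    refine ⟨matchOf V m0 ∅ id σ, hPM', ?_⟩
    apply Equiv.ext
    intro w
    apply Subtype.ext
    apply IsPM.inj h0
    rw [permOf_apply h0 hS hg hinj (hconv hPM'), hfm, matchOf_white w (by simp)]
  · intro m hm
    congr 1
    funext w
    rw [permOf_apply h0 hS hg hinj (hconv hm), hfm]

/-- **Generating function.** -/
theorem detR_weights (hSg : SignLoop) (hI : InsideLoop) {T : Temp} {V : Finset Pt} (hV : Sub T V)
    {m0 : Pt → Pt} (h0 : IsPM V m0) :
    ∃ c : ℝ, |c| = 1 ∧ ∀ y : Pt → Pt → ℝ, detR V m0 (fun w b => y w b * K w b) =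
      c * ∑ m ∈ PM V, ∏ w ∈ V.filter White, y w (m w) := by
  classical
  obtain ⟨c, hc, hsign⟩ := exists_sign hSg hI hV h0
  refine ⟨c, hc, fun y => ?_⟩
  rw [detR_eq]
  have h1 : ∀ σ : Equiv.Perm (WV V), ((Equiv.Perm.sign σ : ℤ) : ℝ) *
      ∏ w : WV V, (y w (m0 (σ w)) * K w (m0 (σ w))) =
      if Good V m0 ∅ id σ then c * ∏ w : WV V, y w (m0 (σ w)) else 0 := by
    intro σ
    rw [prod_mul_distrib]
    split_ifs with h
    · rw [← hsign σ h]; ring
    · unfold Good at h
      push Not at h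
      obtain ⟨w, hw⟩ := h
      have h2 : K w (m0 (σ w)) = 0 := by
        by_contra hne
        exact (hw (by simp)).2 (K_adj hne)
      have h3 : ∏ w : WV V, K w (m0 (σ w)) = 0 := prod_eq_zero (mem_univ w) h2
      rw [h3, mul_zero, mul_zero]
  simp_rw [h1]
  rw [← sum_filter, ← mul_sum]
  congr 1
  have h3 := sum_good h0 (fun f => ∏ w : WV V, y w (f w))
  rw [h3]
  apply sum_congr rfl
  intro m _
  rw [← prod_coe_sort (V.filter White) (fun w => y w (m w))]

/-- `|det K_V| = Z V` -/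
theorem abs_detR_K (hSg : SignLoop) (hI : InsideLoop) {T : Temp} {V : Finset Pt} (hV : Sub T V)
    {m0 : Pt → Pt} (h0 : IsPM V m0) : |detR V m0 K| = Z V := by
  obtain ⟨c, hc, h⟩ := detR_weights hSg hI hV h0
  have h1 := h (fun _ _ => 1)
  simp only [one_mul, prod_const_one, sum_const, nsmul_eq_mul, mul_one] at h1
  have h2 : detR V m0 K = c * ((PM V).card : ℝ) := h1
  rw [h2, abs_mul, hc, one_mul]
  exact abs_of_nonneg (Nat.cast_nonneg _)

end Vale.Agent.P155.A4
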